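import Vale.Agent.P129BZ.DualHB
import Vale.Agent.P129B.Real
import Vale.Agent.P129BI.FP

/-!
# Hilbert spaces inside a model: classes, inner products, closures and limits
-/

set_option linter.unusedSectionVars false

namespace Vale.Agent.P070Z

open Vale.Agent.P129B

universe v

/-- an inner product with values in `K` -/
class Ip (H : Type*) (K : outParam Type*) where
  ip : H → H → K

export Ip (ip)

/-- The scalars are complex and `star` is the conjugation. -/
class CX (R : outParam Type*) (K : Type*) [Field R] [LinearOrder R] [IsStrictOrderedRing R]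
    [Field K] [Algebra R K] [Nm K R] [KA R K] [StarRing K] : Prop where
  I_mul : (KA.I : K) * KA.I = -1
  star_eq : ∀ z : K, star z = KA.conj z

/-- Inner product spaces (algebra only). -/
class IA (R K : outParam Type*) (H : Type*) [Field R] [LinearOrder R] [IsStrictOrderedRing R]
    [Field K] [Algebra R K] [Nm K R] [StarRing K] [AddCommGroup H] [Module K H] [Nm H R]
    [Ip H K] : Prop extends NA R K H where
  ip_add : ∀ x y z : H, ip x (y + z) = ip x y + ip x z
  ip_smul : ∀ (c : K) (x y : H), ip x (c • y) = c * ip x y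
  ip_star : ∀ x y : H, star (ip x y) = ip y x
  ip_self : ∀ x : H, ip x x = algebraMap R K (nm x ^ 2)

/-- The Hilbert spaces of the model. -/
class HS (N : Type v) [ZM N] (R K : outParam Type*) (H : Type*) [Field R] [LinearOrder R]
    [Field K] [AddCommGroup H] [Module K H] [Nm H R] [Ip H K] [Coded N R] [Coded N K]
    [Coded N H] : Prop extends NS N R K H, Cpl N R H where
  defIp : DefF N (fun p : H × H => ip p.1 p.2)

/-- `star` is definable -/
class DefStar (N : Type v) [ZM N] (β : Type*) [Coded N β] [Star β] : Prop where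
  out : DefF N (fun x : β => star x)

attribute [instance 100] IA.toNA HS.toNS HS.toCpl

variable {N : Type v} [ZM N] {α : Type*} [Coded N α]

@[fun_prop] theorem DefF.star {β : Type*} [Coded N β] [Star β] [h : DefStar N β] {f : α → β}
    (hf : DefF N f) : DefF N (fun a => star (f a)) := h.out.comp hf

variable {R K : Type*} [Nm K R] [Field R] [LinearOrder R] [IsStrictOrderedRing R]
  [Field K] [Algebra R K] [KA R K] [StarRing K] [CX R K]

/-! ### Scalars -/

section Sc

include R

@[simp] theorem star_ofR (r : R) : star (algebraMap R K r) = algebraMap R K r := by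
  rw [CX.star_eq, KA.conj_ofR]

@[simp] theorem nm_star (z : K) : nm (star z) = nm z := by rw [CX.star_eq, KA.nm_conj]

@[simp] theorem re_star (z : K) : KA.re (star z) = KA.re z := by rw [CX.star_eq, KA.re_conj]

@[simp] theorem im_star (z : K) : KA.im (star z) = -KA.im z := by rw [CX.star_eq, KA.im_conj]

theorem star_mul_self_eq (z : K) : star z * z = algebraMap R K (nm z ^ 2) := by
  rw [CX.star_eq, KA.conj_mul_self]

theorem im_I : KA.im (KA.I : K) = 1 := by
  rcases KA.I_cases (K := K) with h | h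
  · have := CX.I_mul (K := K)
    rw [h, mul_zero] at this
    exact absurd (neg_eq_zero.1 this.symm) one_ne_zero
  · exact h.2

theorem star_I : star (KA.I : K) = -KA.I :=
  KA.ext (by rw [re_star, map_neg, KA.re_I, neg_zero]) (by rw [im_star, map_neg])

theorem nm_I : nm (KA.I : K) = 1 := by
  refine (sq_eq_sq₀ (KA.nm_nonneg' _) zero_le_one).1 ?_
  rw [KA.nm_sq, KA.re_I, im_I]; ring

theorem nm_two : nm (2 : K) = 2 := by
  have := KA.nm_ofR_of_nonneg (K := K) (zero_le_two (α := R))
  rwa [map_ofNat] at this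

theorem two_ne_zero_K : (2 : K) ≠ 0 := fun h => by
  have := nm_two (K := K)
  rw [h, nm_zero] at this
  exact two_ne_zero this.symm

instance (priority := 100) [Coded N R] [RF N R] [Coded N K] [KF N R K] : DefStar N K :=
  ⟨(DefF.conj DefF.id).congr fun z _ => (CX.star_eq z).symm⟩

end Sc

/-! ### Inner products -/

section IP

variable {H : Type*} [AddCommGroup H] [Module K H] [Nm H R] [Ip H K] [IA R K H]

include R K

theorem ip_add_right (x y z : H) : ip x (y + z) = ip x y + ip x z := IA.ip_add x y z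

theorem ip_smul_right (c : K) (x y : H) : ip x (c • y) = c * ip x y := IA.ip_smul c x y

theorem star_ip (x y : H) : star (ip x y) = ip y x := IA.ip_star x y

theorem ip_self (x : H) : ip x x = algebraMap R K (nm x ^ 2) := IA.ip_self x

theorem ip_add_left (x y z : H) : ip (x + y) z = ip x z + ip y z := by
  rw [← star_ip, ip_add_right, star_add, star_ip, star_ip]

theorem ip_smul_left (c : K) (x y : H) : ip (c • x) y = star c * ip x y := by
  rw [← star_ip, ip_smul_right, star_mul', star_ip]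

@[simp] theorem ip_zero_right (x : H) : ip x (0 : H) = 0 := by
  have := ip_smul_right (0 : K) x 0
  rwa [zero_smul, zero_mul] at this

@[simp] theorem ip_zero_left (x : H) : ip (0 : H) x = 0 := by
  rw [← star_ip, ip_zero_right, star_zero]

theorem ip_neg_right (x y : H) : ip x (-y) = -ip x y := by
  rw [← neg_one_smul K y, ip_smul_right, neg_one_mul]

theorem ip_neg_left (x y : H) : ip (-x) y = -ip x y := by
  rw [← star_ip, ip_neg_right, star_neg, star_ip]

theorem ip_sub_right (x y z : H) : ip x (y - z) = ip x y - ip x z := by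
  rw [sub_eq_add_neg, ip_add_right, ip_neg_right, sub_eq_add_neg]

theorem ip_sub_left (x y z : H) : ip (x - y) z = ip x z - ip y z := by
  rw [sub_eq_add_neg, ip_add_left, ip_neg_left, sub_eq_add_neg]

theorem re_ip_self (x : H) : KA.re (ip x x) = nm x ^ 2 := by rw [ip_self, KA.re_ofR]

theorem nm_ip_self (x : H) : nm (ip x x) = nm x ^ 2 := by
  rw [ip_self, KA.nm_ofR_of_nonneg (sq_nonneg _)]

theorem ip_self_eq_zero {x : H} : ip x x = 0 ↔ x = 0 :=
  ⟨fun h => by
    have := re_ip_self x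
    rw [h, map_zero] at this
    exact nm_eq_zero.1 (pow_eq_zero_iff two_ne_zero |>.1 this.symm), fun h => by simp [h]⟩

theorem ip_self_one {x : H} (h : nm x = 1) : ip x x = 1 := by rw [ip_self, h, one_pow, map_one]

theorem re_ip_symm (x y : H) : KA.re (ip x y) = KA.re (ip y x) := by rw [← star_ip, re_star]

theorem nm_ip_symm (x y : H) : nm (ip x y) = nm (ip y x) := by rw [← star_ip, nm_star]

theorem ip_eq_zero_symm {x y : H} (h : ip x y = 0) : ip y x = 0 := by rw [← star_ip, h, star_zero]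

theorem nm_add_sq (x y : H) : nm (x + y) ^ 2 = nm x ^ 2 + 2 * KA.re (ip x y) + nm y ^ 2 := by
  rw [← re_ip_self, ip_add_left, ip_add_right, ip_add_right, map_add, map_add, map_add,
    re_ip_self, re_ip_self, re_ip_symm y x]
  ring

theorem nm_sub_sq (x y : H) : nm (x - y) ^ 2 = nm x ^ 2 - 2 * KA.re (ip x y) + nm y ^ 2 := by
  rw [sub_eq_add_neg, nm_add_sq, ip_neg_right, map_neg, nm_neg]; ring

theorem parallelogram (x y : H) :
    nm (x + y) ^ 2 + nm (x - y) ^ 2 = 2 * nm x ^ 2 + 2 * nm y ^ 2 := by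
  rw [nm_add_sq, nm_sub_sq]; ring

theorem re_ip_le (x y : H) : KA.re (ip x y) ≤ nm x * nm y := by
  have h1 := nm_add_sq x y
  have h2 := pow_le_pow_left₀ (nm_nonneg _) (nm_add_le x y) 2
  nlinarith

/-- Cauchy-Schwarz -/
theorem nm_ip_le (x y : H) : nm (ip x y) ≤ nm x * nm y := by
  have h := re_ip_le x (KA.rot (ip x y) • y)
  rwa [ip_smul_right, KA.rot_mul, KA.re_ofR, nm_smul, KA.nm_rot, one_mul] at h

theorem ext_ip_left {x y : H} (h : ∀ w, ip w x = ip w y) : x = y :=
  sub_eq_zero.1 (ip_self_eq_zero.1 (by rw [ip_sub_right, h, sub_self]))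

theorem ext_ip_right {x y : H} (h : ∀ w, ip x w = ip y w) : x = y :=
  sub_eq_zero.1 (ip_self_eq_zero.1 (by rw [ip_sub_left, h, sub_self]))

theorem nm_le_of_ip {x : H} {C : R} (hC : 0 ≤ C) (h : nm (ip x x) ≤ C * nm x) : nm x ≤ C := by
  rw [nm_ip_self] at h
  rcases (nm_nonneg x).eq_or_lt with e | e
  · rw [← e]; exact hC
  · exact le_of_mul_le_mul_right (by rwa [← sq]) e

@[fun_prop] theorem DefF.ip [Coded N R] [Coded N K] [Coded N H] [h : HS N R K H] {f g : α → H}
    (hf : DefF N f) (hg : DefF N g) : DefF N (fun a => ip (f a) (g a)) :=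
  DefF.comp2 h.defIp hf hg

end IP

/-! ### Closures and limits -/

section Cl

variable {E : Type*} [AddCommGroup E] [Nm E R]

/-- the closure of a set -/
def icl (S : Set E) : Set E := {x | ∀ ε : R, 0 < ε → ∃ y ∈ S, nm (x - y) < ε}

/-- closed sets -/
def Cld (S : Set E) : Prop := icl S ⊆ S

/-- the sequence `s` tends to `x` -/
def Tt (s : NN N → E) (x : E) : Prop := ∀ ε : R, 0 < ε → ∃ n, ∀ k, n ≤ k → nm (s k - x) < ε

theorem icl_mono {S T : Set E} (h : S ⊆ T) : icl S ⊆ icl T := fun _ hx ε hε =>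
  (hx ε hε).imp fun _ hy => ⟨h hy.1, hy.2⟩

theorem Cld.icl_sub {S T : Set E} (hT : Cld T) (h : S ⊆ T) : icl S ⊆ T := (icl_mono h).trans hT

theorem cld_univ : Cld (Set.univ : Set E) := Set.subset_univ _

theorem Cld.inter {S T : Set E} (hS : Cld S) (hT : Cld T) : Cld (S ∩ T) := fun _ hx =>
  ⟨hS.icl_sub Set.inter_subset_left hx, hT.icl_sub Set.inter_subset_right hx⟩

theorem cld_forall {ι : Sort*} {P : ι → E → Prop} (h : ∀ i, Cld {x | P i x}) :
    Cld {x | ∀ i, P i x} := fun _ hx i => (h i).icl_sub (S := {x | ∀ i, P i x}) (fun _ hy => hy i) hx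

theorem Cld.mem_of_tt {S : Set E} (hS : Cld S) {s : NN N → E} {x : E} (h : Tt s x)
    (hs : ∀ k, s k ∈ S) [NG R E] : x ∈ S := hS fun ε hε => by
  obtain ⟨n, hn⟩ := h ε hε
  exact ⟨s n, hs n, by rw [nm_sub_rev]; exact hn n le_rfl⟩

variable [NG R E]

theorem sub_icl (S : Set E) : S ⊆ icl S := fun x hx _ hε => ⟨x, hx, by simpa using hε⟩

theorem cld_icl (S : Set E) : Cld (icl S) := fun x hx ε hε => by
  obtain ⟨y, hy, h1⟩ := hx (ε / 2) (half_pos hε)
  obtain ⟨z, hz, h2⟩ := hy (ε / 2) (half_pos hε)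
  exact ⟨z, hz, by linarith [nm_triangle x y z]⟩

theorem cld_singleton (a : E) : Cld ({a} : Set E) := fun x hx =>
  eq_of_forall_nm_sub_le fun ε hε => by
    obtain ⟨y, rfl, h⟩ := hx ε hε
    exact h.le

/-- Lipschitz maps preserve closures. -/
theorem map_icl {F : Type*} [AddCommGroup F] [Nm F R] {f : E → F} {C : R}
    (hf : ∀ x y, nm (f x - f y) ≤ C * nm (x - y)) {S : Set E} {T : Set F}
    (h : ∀ x ∈ S, f x ∈ icl T) [NG R F] {x : E} (hx : x ∈ icl S) : f x ∈ icl T := by
  refine cld_icl T fun ε hε => ?_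
  obtain ⟨y, hy, h1⟩ := hx (ε / (|C| + 1)) (by positivity)
  refine ⟨f y, h y hy, (hf x y).trans_lt ?_⟩
  have h2 := (lt_div_iff₀ (by positivity : 0 < |C| + 1)).1 h1
  nlinarith [nm_nonneg (x - y), le_abs_self C]

/-- Preimages of closed sets under Lipschitz maps. -/
theorem Cld.pre {F : Type*} [AddCommGroup F] [Nm F R] [NG R F] {f : E → F} {C : R}
    (hf : ∀ x y, nm (f x - f y) ≤ C * nm (x - y)) {T : Set F} (hT : Cld T) :
    Cld {x | f x ∈ T} := fun _ hx => hT (map_icl hf (fun _ hy => sub_icl T hy) hx)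

theorem cld_eq_zero {F : Type*} [AddCommGroup F] [Nm F R] [NG R F] {f : E → F} {C : R}
    (hf : ∀ x y, nm (f x - f y) ≤ C * nm (x - y)) : Cld {x | f x = 0} :=
  Cld.pre hf (cld_singleton 0)

theorem Tt.uniq {s : NN N → E} {x y : E} (h : Tt s x) (k : Tt s y) : x = y :=
  eq_of_forall_nm_sub_le fun ε hε => by
    obtain ⟨n, hn⟩ := h (ε / 2) (half_pos hε)
    obtain ⟨m, hm⟩ := k (ε / 2) (half_pos hε)
    have h1 := hn (max n m) (le_max_left _ _)
    have h2 := hm (max n m) (le_max_right _ _)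
    rw [nm_sub_rev] at h1
    linarith [nm_triangle x (s (max n m)) y]

theorem Tt.nm_le {s : NN N → E} {x : E} (h : Tt s x) {C : R} (hs : ∀ k, nm (s k) ≤ C) :
    nm x ≤ C := le_of_forall_pos_le_add fun ε hε => by
  obtain ⟨n, hn⟩ := h ε hε
  have h1 := hn n le_rfl
  rw [nm_sub_rev] at h1
  linarith [nm_le_add_sub x (s n), hs n]

theorem Tt.le_nm {s : NN N → E} {x : E} (h : Tt s x) {C : R} (hs : ∀ k, C ≤ nm (s k)) :
    C ≤ nm x := le_of_forall_pos_le_add fun ε hε => by
  obtain ⟨n, hn⟩ := h ε hε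
  linarith [nm_le_add_sub (s n) x, hs n, hn n le_rfl]

theorem Tt.map {F : Type*} [AddCommGroup F] [Nm F R] {f : E → F} {C : R}
    (hf : ∀ x y, nm (f x - f y) ≤ C * nm (x - y)) {s : NN N → E} {x : E} (h : Tt s x) :
    Tt (fun k => f (s k)) (f x) := fun ε hε => by
  obtain ⟨n, hn⟩ := h (ε / (|C| + 1)) (by positivity)
  refine ⟨n, fun k hk => (hf _ _).trans_lt ?_⟩
  have h2 := (lt_div_iff₀ (by positivity : 0 < |C| + 1)).1 (hn k hk)
  nlinarith [nm_nonneg (s k - x), le_abs_self C]

variable [Coded N R] [RF N R] [Coded N E] [Tot N E] [DefAdd N E] [DefSub N E] [DefNm N R E]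

@[fun_prop] theorem DefF.icl {s : α → Set E} (hs : DefF N s) : DefF N (fun a => icl (s a)) :=
  DefF.setOfT (P := fun a x => ∀ ε : R, 0 < ε → ∃ y ∈ s a, nm (x - y) < ε) (by fun_prop)

instance intl_icl (S : Set E) [Intl N S] : Intl N (icl S) := (DefF.icl DefF.id).intl S

@[fun_prop] theorem DefF.cld {s : α → Set E} (hs : DefF N s) : DefF N (fun a => Cld (s a)) := by
  unfold Cld
  fun_prop

@[fun_prop] theorem DefF.tt {s : α → NN N → E} {x : α → E}
    (hs : DefF N (fun p : α × NN N => s p.1 p.2)) (hx : DefF N x) :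
    DefF N (fun a => Tt (s a) (x a)) := by
  unfold Tt
  fun_prop

theorem tt_of_hp {s : NN N → E} {x : E} (C : R) (h : ∀ k, nm (s k - x) ≤ C * hp R k) :
    Tt s x := fun ε hε => by
  obtain ⟨n, hn⟩ := exists_mul_hp_lt N C hε
  exact ⟨n, fun k hk => (h k).trans_lt (hn k hk)⟩

/-- A point of the closure is the limit of an internal sequence. -/
theorem exists_seq_of_icl {S : Set E} [Intl N S] {x : E} (hx : x ∈ icl S) :
    ∃ s : NN N → E, Intl N s ∧ ∀ k, s k ∈ S ∧ nm (x - s k) < hp R k :=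
  exists_intl_choiceT (R := fun k y => y ∈ S ∧ nm (x - y) < hp R k) (by fun_prop)
    fun k => hx _ (hp_pos k)

theorem exists_tt [Cpl N R E] {s : NN N → E} (hs : DefF N s)
    (h : ∀ ε : R, 0 < ε → ∃ n, ∀ k l, n ≤ k → n ≤ l → nm (s k - s l) < ε) : ∃ x, Tt s x :=
  Cpl.lim s hs.toIntl h

/-- Sequences with geometrically small steps converge. -/
theorem exists_lim_hp [Cpl N R E] {s : NN N → E} (hs : DefF N s) {C : R}
    (h : ∀ k, nm (s (k + 1) - s k) ≤ C * hp R k) :
    ∃ x, Tt s x ∧ ∀ k, nm (s k - x) ≤ 2 * C * hp R k := by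
  have h1 : ∀ k l, nm (s (k + l) - s k) ≤ 2 * C * (hp R k - hp R (k + l)) := fun k l =>
    NN.ind (P := fun l => nm (s (k + l) - s k) ≤ 2 * C * (hp R k - hp R (k + l))) (by fun_prop)
      (by simp) (fun l ih => by
        have h2 := h (k + l)
        rw [← add_assoc, hp_succ]
        linarith [nm_triangle (s (k + l + 1)) (s (k + l)) (s k)]) l
  have hC : 0 ≤ C := by
    have := (nm_nonneg _).trans (h 0)
    exact nonneg_of_mul_nonneg_left this (hp_pos 0)
  have h3 : ∀ k l, k ≤ l → nm (s l - s k) ≤ 2 * C * hp R k := fun k l hkl => by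
    obtain ⟨d, rfl⟩ := exists_add_of_le hkl
    nlinarith [h1 k d, mul_nonneg hC (hp_pos (R := R) (k + d)).le]
  obtain ⟨x, hx⟩ := exists_tt hs fun ε hε => by
    obtain ⟨n, hn⟩ := exists_mul_hp_lt N (4 * C) hε
    refine ⟨n, fun k l hk hl => ?_⟩
    have h4 := h3 n l hl
    rw [nm_sub_rev] at h4
    linarith [nm_triangle (s k) (s n) (s l), h3 n k hk, hn n le_rfl]
  refine ⟨x, hx, fun k => le_of_forall_pos_le_add fun ε hε => ?_⟩
  obtain ⟨n, hn⟩ := hx ε hε
  have h4 := h3 k (max n k) (le_max_right _ _)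
  rw [nm_sub_rev] at h4
  linarith [nm_triangle (s k) (s (max n k)) x, hn (max n k) (le_max_left _ _)]

end Cl

end Vale.Agent.P070Z
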