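import Vale.Agent.P070ZA.Hs

/-!
# The bounded operators on a Hilbert space of a model
-/

set_option linter.unusedSectionVars false

namespace Vale.Agent.P070Z

open Vale.Agent.P129B

universe v

/-- definable, bounded, and with an adjoint of the same kind -/
def IsOp (N : Type v) [ZM N] {R K H : Type*} [Mul R] [LE R] [Nm H R] [Ip H K] [Coded N H]
    (f : H → H) : Prop :=
  DefF N f ∧ (∃ C : R, ∀ x, nm (f x) ≤ C * nm x) ∧
    ∃ g : H → H, DefF N g ∧ ∀ x y, ip (g x) y = ip x (f y)

/-- the internal bounded operators -/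
def Op (N : Type v) [ZM N] (K H : Type*) {R : Type*} [Mul R] [LE R] [Field K] [AddCommGroup H]
    [Module K H] [Nm H R] [Ip H K] [Coded N H] : Type _ :=
  {f : Module.End K H // IsOp N (fun x => f x)}

variable {N : Type v} [ZM N] {α : Type*} [Coded N α]
  {R K : Type*} [Nm K R] [Field R] [LinearOrder R] [IsStrictOrderedRing R]
  [Field K] [Algebra R K] [KA R K] [StarRing K] [CX R K] [Coded N R] [RF N R] [Coded N K]
  [KF N R K] {H : Type*} [AddCommGroup H] [Module K H] [Nm H R] [Ip H K] [IA R K H] [Coded N H]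
  [HS N R K H]

include R K

theorem adj_lin {f g : H → H} (h : ∀ x y, ip (g x) y = ip x (f y)) :
    (∀ x y, g (x + y) = g x + g y) ∧ ∀ (c : K) x, g (c • x) = c • g x :=
  ⟨fun x y => ext_ip_right fun w => by rw [h, ip_add_left, ip_add_left, h, h],
    fun c x => ext_ip_right fun w => by rw [h, ip_smul_left, ip_smul_left, h]⟩

theorem adj_bd {f g : H → H} (h : ∀ x y, ip (g x) y = ip x (f y)) {C : R} (hC : 0 ≤ C)
    (hf : ∀ x, nm (f x) ≤ C * nm x) (x : H) : nm (g x) ≤ C * nm x := by
  refine nm_le_of_ip (mul_nonneg hC (nm_nonneg x)) ?_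
  rw [h]
  have := mul_le_mul_of_nonneg_left (hf (g x)) (nm_nonneg x)
  linarith [nm_ip_le x (f (g x))]

theorem bd_abs {f : H → H} {C : R} (hf : ∀ x, nm (f x) ≤ C * nm x) (x : H) :
    nm (f x) ≤ |C| * nm x := (hf x).trans (mul_le_mul_of_nonneg_right (le_abs_self C) (nm_nonneg x))

namespace Op

section Basic

omit [Nm K R] [IsStrictOrderedRing R] [Algebra R K] [KA R K] [StarRing K] [CX R K] [Coded N R]
  [RF N R] [Coded N K] [KF N R K] [IA R K H] [HS N R K H]

instance : FunLike (Op N K H) H H where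
  coe u := u.1
  coe_injective _ _ h := Subtype.ext (DFunLike.coe_injective h)

instance : LinearMapClass (Op N K H) K H H where
  map_add u := u.1.map_add
  map_smulₛₗ u := u.1.map_smul

@[ext] theorem ext {u w : Op N K H} (h : ∀ x, u x = w x) : u = w := DFunLike.ext _ _ h

theorem defF (u : Op N K H) : DefF N (fun x => u x) := u.2.1

theorem bdd (u : Op N K H) : ∃ C : R, ∀ x, nm (u x) ≤ C * nm x := u.2.2.1

theorem adj (u : Op N K H) : ∃ g : H → H, DefF N g ∧ ∀ x y, ip (g x) y = ip x (u y) := u.2.2.2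

end Basic

variable (N K H) in
/-- the operators as a subalgebra -/
def sub : Subalgebra K (Module.End K H) where
  carrier := {f | IsOp N (fun x => f x)}
  add_mem' := fun {f g} ⟨hf, ⟨C, hC⟩, f', hf', ef⟩ ⟨hg, ⟨D, hD⟩, g', hg', eg⟩ =>
    ⟨hf.add hg, ⟨C + D, fun x => by
      rw [add_mul]; exact (nm_add_le _ _).trans (add_le_add (hC x) (hD x))⟩,
      fun x => f' x + g' x, hf'.add hg', fun x y => by
        rw [ip_add_left, ef, eg]; exact (ip_add_right x _ _).symm⟩
  mul_mem' := fun {f g} ⟨hf, ⟨C, hC⟩, f', hf', ef⟩ ⟨hg, ⟨D, hD⟩, g', hg', eg⟩ =>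
    ⟨hf.comp hg, ⟨|C| * D, fun x => by
      rw [mul_assoc]
      exact (bd_abs hC _).trans (mul_le_mul_of_nonneg_left (hD x) (abs_nonneg C))⟩,
      fun x => g' (f' x), hg'.comp hf', fun x y => by rw [eg, ef]; rfl⟩
  algebraMap_mem' := fun c => ⟨(DefF.const c).smul DefF.id, ⟨nm c, fun x => (nm_smul c x).le⟩,
    fun x => star c • x, (DefF.const (star c)).smul DefF.id, fun x y => by
      rw [ip_smul_left, star_star]; exact (ip_smul_right c x y).symm⟩

instance : Ring (Op N K H) := inferInstanceAs (Ring (sub N K H))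

instance : Algebra K (Op N K H) := inferInstanceAs (Algebra K (sub N K H))

@[simp] theorem zero_apply (x : H) : (0 : Op N K H) x = 0 := rfl
@[simp] theorem one_apply (x : H) : (1 : Op N K H) x = x := rfl
@[simp] theorem add_apply (u w : Op N K H) (x : H) : (u + w) x = u x + w x := rfl
@[simp] theorem sub_apply (u w : Op N K H) (x : H) : (u - w) x = u x - w x := rfl
@[simp] theorem neg_apply (u : Op N K H) (x : H) : (-u) x = -u x := rfl
@[simp] theorem mul_apply (u w : Op N K H) (x : H) : (u * w) x = u (w x) := rfl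
@[simp] theorem smul_apply (c : K) (u : Op N K H) (x : H) : (c • u) x = c • u x := rfl

end Op

/-- Formation of operators from a map with an adjoint. -/
theorem exists_op (f g : H → H) (hf : DefF N f) (hg : DefF N g)
    (h : ∀ x y, ip (g x) y = ip x (f y)) (C : R) (bd : ∀ x, nm (f x) ≤ C * nm x) :
    ∃ u : Op N K H, ∀ x, u x = f x := by
  have h' : ∀ x y, ip (f x) y = ip x (g y) := fun x y => by rw [← star_ip, ← h, star_ip]
  exact ⟨⟨⟨⟨f, (adj_lin h').1⟩, (adj_lin h').2⟩, hf, ⟨C, bd⟩, g, hg, h⟩, fun _ => rfl⟩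

theorem exists_star (u : Op N K H) : ∃ w : Op N K H, ∀ x y, ip (w x) y = ip x (u y) := by
  obtain ⟨g, hg, h⟩ := u.adj
  obtain ⟨C, hC⟩ := u.bdd
  obtain ⟨w, hw⟩ := exists_op g u hg u.defF (fun x y => by rw [← star_ip, ← h, star_ip]) |C|
    (adj_bd h (abs_nonneg C) (bd_abs hC))
  exact ⟨w, fun x y => by rw [hw, h]⟩

noncomputable instance : Star (Op N K H) := ⟨fun u => (exists_star u).choose⟩

theorem ip_star_left (u : Op N K H) (x y : H) : ip ((star u) x) y = ip x (u y) :=
  (exists_star u).choose_spec x y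

theorem ip_star_right (u : Op N K H) (x y : H) : ip x ((star u) y) = ip (u x) y := by
  rw [← star_ip, ip_star_left, star_ip]

theorem eq_star {u w : Op N K H} (h : ∀ x y, ip (w x) y = ip x (u y)) : w = star u :=
  Op.ext fun x => ext_ip_right fun y => by rw [h, ip_star_left]

noncomputable instance : StarRing (Op N K H) where
  star_involutive u := (eq_star fun x y => (ip_star_right u x y).symm).symm
  star_mul u w := (eq_star fun x y => by
    rw [Op.mul_apply, Op.mul_apply, ip_star_left, ip_star_left]).symm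
  star_add u w := (eq_star fun x y => by
    rw [Op.add_apply, Op.add_apply, ip_add_left, ip_add_right, ip_star_left, ip_star_left]).symm

instance : StarModule K (Op N K H) where
  star_smul c u := (eq_star fun x y => by
    rw [Op.smul_apply, Op.smul_apply, ip_smul_left, ip_smul_right, star_star, ip_star_left]).symm

theorem ip_sa {u : Op N K H} (h : star u = u) (x y : H) : ip (u x) y = ip x (u y) := by
  rw [← ip_star_left, h]

theorem sa_of_ip {u : Op N K H} (h : ∀ x y, ip (u x) y = ip x (u y)) : star u = u :=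
  (eq_star h).symm

noncomputable instance codedOp : Coded N (Op N K H) :=
  Coded.pull (α := H → H) (fun u => ⇑u) (fun _ _ _ _ h => DFunLike.coe_injective h) (by
    have : DefF N (fun f : H → H => (∃ C : R, ∀ x : H, nm (app f x) ≤ C * nm x) ∧
        ∃ g : H → H, Intl N g ∧ ∀ x y : H, ip (app g x) y = ip x (app f y)) := by fun_prop
    refine this.congrP fun f hf => ⟨fun ⟨⟨C, h3⟩, g, hg, h⟩ => ?_, ?_⟩
    · obtain ⟨u, hu⟩ := exists_op (N := N) f g (DefF.ofIntl f) (DefF.ofIntl g) h C h3
      exact ⟨u, funext hu⟩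
    · rintro ⟨u, rfl⟩
      obtain ⟨g, hg, h⟩ := u.adj
      exact ⟨u.bdd, g, hg.toIntl, h⟩)

instance intl_op_coe (u : Op N K H) : Intl N (⇑u : H → H) := u.defF.toIntl

instance intl_op (u : Op N K H) : Intl N u := ⟨intl_op_coe u⟩

instance : Tot N (Op N K H) where
  car := by
    have h1 : Intl N {s : H → H | Intl N s ∧ Dom N (Op N K H) (code N s)} :=
      intl_setOf (by fun_prop)
    refine ⟨code N _, fun x => (mem_code_set h1).trans ?_⟩
    constructor
    · rintro ⟨s, ⟨-, f, hf, h⟩, rfl⟩; exact ⟨f, hf, h⟩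
    · rintro ⟨f, hf, rfl⟩; exact ⟨⇑f, ⟨inferInstance, f, hf, rfl⟩, rfl⟩
  all := intl_op

theorem defF_op_coe : DefF N (fun u : Op N K H => (⇑u : H → H)) :=
  ⟨fun _ _ => inferInstance, (DefF.id (N := N) (α := Op N K H)).2⟩

@[fun_prop] theorem DefF.opApp {f : α → Op N K H} {g : α → H} (hf : DefF N f)
    (hg : DefF N g) : DefF N (fun a => f a (g a)) := (defF_op_coe.comp hf).ap hg

/-- A family of operators with a definable evaluation is definable. -/
theorem defF_op {f : α → Op N K H} (h : DefF N (fun p : α × H => f p.1 p.2)) : DefF N f :=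
  ⟨fun _ _ => inferInstance, (DefF.lam (fun a x => f a x) h).2⟩

namespace Op

/-- the values on the unit ball -/
def vals (u : Op N K H) : Set R := {r | ∃ x : H, nm x ≤ 1 ∧ nm (u x) = r}

noncomputable instance : Nm (Op N K H) R := ⟨fun u => isup (vals u)⟩

theorem isLUB_nm (u : Op N K H) : IsLUB (vals u) (nm u) := by
  obtain ⟨C, hC⟩ := u.bdd
  refine isLUB_isup (N := N) (intl_setOfT (by fun_prop)) ⟨_, 0, by simp, rfl⟩ ⟨|C|, ?_⟩
  rintro _ ⟨x, hx, rfl⟩
  exact (bd_abs hC x).trans (mul_le_of_le_one_right (abs_nonneg C) hx)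

theorem le_nm_of_le_one (u : Op N K H) {x : H} (hx : nm x ≤ 1) : nm (u x) ≤ nm u :=
  u.isLUB_nm.1 ⟨x, hx, rfl⟩

theorem nm_le_of_ball {u : Op N K H} {C : R} (h : ∀ x, nm x ≤ 1 → nm (u x) ≤ C) : nm u ≤ C :=
  u.isLUB_nm.2 (by rintro _ ⟨x, hx, rfl⟩; exact h x hx)

/-- `‖u x‖ ≤ ‖u‖ ‖x‖` -/
theorem le_opNorm (u : Op N K H) (x : H) : nm (u x) ≤ nm u * nm x := by
  rcases eq_or_ne x 0 with rfl | h
  · simp
  · have h1 := u.le_nm_of_le_one (nm_normalize (K := K) h).le
    have h2 := nm_pos_iff.2 h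
    rw [map_smul, nm_ofR_smul_of_nonneg (inv_nonneg.2 h2.le), inv_mul_le_iff₀ h2, mul_comm] at h1
    exact h1

theorem opNorm_le {u : Op N K H} {C : R} (hC : 0 ≤ C) (h : ∀ x, nm (u x) ≤ C * nm x) :
    nm u ≤ C :=
  nm_le_of_ball fun x hx => (h x).trans (mul_le_of_le_one_right hC hx)

theorem opNorm_nonneg (u : Op N K H) : 0 ≤ nm u :=
  (nm_nonneg _).trans (u.le_nm_of_le_one (x := 0) (by simp))

theorem le_of_opNorm_le {u : Op N K H} {C : R} (h : nm u ≤ C) (x : H) : nm (u x) ≤ C * nm x :=
  (u.le_opNorm x).trans (mul_le_mul_of_nonneg_right h (nm_nonneg x))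

theorem lip (u : Op N K H) (x y : H) : nm (u x - u y) ≤ nm u * nm (x - y) := by
  rw [← map_sub]; exact u.le_opNorm _

theorem lip' (x : H) (u w : Op N K H) : nm (u x - w x) ≤ nm x * nm (u - w) := by
  rw [mul_comm]; exact (u - w).le_opNorm x

instance : NA R K (Op N K H) where
  nm_add u w := nm_le_of_ball fun x hx =>
    (nm_add_le _ _).trans (add_le_add (u.le_nm_of_le_one hx) (w.le_nm_of_le_one hx))
  nm_smul c u := by
    have key : ∀ (c : K) (u : Op N K H), nm (c • u) ≤ nm c * nm u := fun c u =>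
      nm_le_of_ball fun x hx => by
        rw [smul_apply, nm_smul]
        exact mul_le_mul_of_nonneg_left (u.le_nm_of_le_one hx) (nm_nonneg c)
    refine le_antisymm (key c u) ?_
    rcases eq_or_ne c 0 with rfl | h
    · rw [nm_zero, zero_mul]; exact opNorm_nonneg _
    · have h1 := key c⁻¹ (c • u)
      rwa [inv_smul_smul₀ h, KA.nm_inv, le_inv_mul_iff₀ (nm_pos_iff.2 h)] at h1
  eq_zero_of_nm u h := ext fun x => nm_le_zero_iff.1 (by simpa [h] using u.le_opNorm x)

instance : NS N R K (Op N K H) where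
  defAdd := ⟨defF_op (by simp only [add_apply]; fun_prop)⟩
  defSMul := ⟨defF_op (by simp only [smul_apply]; fun_prop)⟩
  defNm := ⟨DefF.isup (DefF.setOfT (P := fun (u : Op N K H) (r : R) =>
    ∃ x : H, nm x ≤ 1 ∧ nm (u x) = r) (by fun_prop))⟩

instance : DefMul N (Op N K H) := ⟨defF_op (by simp only [mul_apply]; fun_prop)⟩

instance : DefStar N (Op N K H) :=
  ⟨defF_of_rel (R := fun u w : Op N K H => ∀ x y : H, ip (w x) y = ip x (u y))
    (fun _ _ => inferInstance) (by fun_prop) fun u w _ _ =>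
      ⟨fun h => (eq_star h).symm, fun h => h ▸ ip_star_left u⟩⟩

theorem exists_lt_apply (u : Op N K H) {r : R} (h : r < nm u) :
    ∃ x, nm x ≤ 1 ∧ r < nm (u x) := by
  by_contra hc
  push Not at hc
  exact absurd (nm_le_of_ball hc) (not_le.2 h)

theorem nm_mul_le (u w : Op N K H) : nm (u * w) ≤ nm u * nm w :=
  nm_le_of_ball fun _ hx => (u.le_opNorm _).trans
    (mul_le_mul_of_nonneg_left (w.le_nm_of_le_one hx) u.opNorm_nonneg)

theorem nm_mul_le_of {u w : Op N K H} {a b : R} (hu : nm u ≤ a) (hw : nm w ≤ b) :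
    nm (u * w) ≤ a * b :=
  (nm_mul_le u w).trans (mul_le_mul hu hw w.opNorm_nonneg (u.opNorm_nonneg.trans hu))

theorem nm_one_le : nm (1 : Op N K H) ≤ 1 := nm_le_of_ball fun _ hx => hx

@[simp] theorem nm_star (u : Op N K H) : nm (star u) = nm u := by
  have key : ∀ u : Op N K H, nm (star u) ≤ nm u := fun u => opNorm_le u.opNorm_nonneg
    (adj_bd (ip_star_left u) u.opNorm_nonneg u.le_opNorm)
  exact le_antisymm (key u) (by simpa only [star_star] using key (star u))

theorem ip_star_mul_self (u : Op N K H) (x : H) :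
    ip x ((star u * u) x) = algebraMap R K (nm (u x) ^ 2) := by
  rw [mul_apply, ip_star_right, ip_self]

/-- the C*-identity -/
theorem nm_star_mul_self (u : Op N K H) : nm (star u * u) = nm u ^ 2 := by
  refine le_antisymm ((nm_mul_le _ _).trans_eq (by rw [nm_star, sq])) ?_
  have h0 := (star u * u).opNorm_nonneg
  rw [← rsqrt_sq N h0]
  refine pow_le_pow_left₀ u.opNorm_nonneg (nm_le_of_ball fun x hx => ?_) 2
  rw [le_rsqrt_iff N h0 (nm_nonneg _), ← KA.nm_ofR_of_nonneg (K := K) (sq_nonneg (nm (u x))),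
    ← ip_star_mul_self]
  exact (nm_ip_le _ _).trans ((mul_le_of_le_one_left (nm_nonneg _) hx).trans
    ((star u * u).le_nm_of_le_one hx))

theorem isum_apply {f : NN N → Op N K H} (hf : DefF N f) (n : NN N) (x : H) :
    (isum f n) x = isum (fun i => f i x) n :=
  map_isum' (φ := fun u : Op N K H => u x) (by fun_prop) rfl (fun _ _ => rfl) hf n

/-- Bounded sequences of operators which converge strongly together with their adjoints. -/
theorem exists_strong {s : NN N → Op N K H} (hs : DefF N s) {C : R} (hC : ∀ k, nm (s k) ≤ C)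
    (h1 : ∀ x, ∃ y, Tt (fun k => s k x) y) (h2 : ∀ x, ∃ y, Tt (fun k => (star (s k)) x) y) :
    ∃ u : Op N K H, (∀ x, Tt (fun k => s k x) (u x)) ∧
      ∀ x, Tt (fun k => (star (s k)) x) ((star u) x) := by
  obtain ⟨f, hf, ef⟩ := exists_intl_choiceT (N := N)
    (R := fun x y : H => Tt (fun k => s k x) y) (by fun_prop) h1
  obtain ⟨g, hg, eg⟩ := exists_intl_choiceT (N := N)
    (R := fun x y : H => Tt (fun k => (star (s k)) x) y) (by fun_prop) h2
  have h : ∀ x y, ip (g x) y = ip x (f y) := fun x y => by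
    have a := (eg x).map (f := fun z => ip z y) (C := nm y) fun a b => by
      rw [← ip_sub_left, mul_comm]; exact nm_ip_le _ _
    have b := (ef y).map (f := fun z => ip x z) (C := nm x) fun a b => by
      rw [← ip_sub_right]; exact nm_ip_le _ _
    simp only [ip_star_left] at a
    exact a.uniq b
  obtain ⟨u, hu⟩ := exists_op (N := N) f g (DefF.ofIntl f) (DefF.ofIntl g) h C fun x =>
    (ef x).nm_le fun k => le_of_opNorm_le (hC k) x
  refine ⟨u, fun x => hu x ▸ ef x, fun x => ?_⟩
  have : (star u) x = g x := ext_ip_right fun y => by rw [ip_star_left, hu, h]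
  exact this ▸ eg x

instance : Cpl N R (Op N K H) where
  lim s hs h := by
    have hs' : DefF N s := DefF.ofIntl s
    obtain ⟨m, hm⟩ := h 1 one_pos
    have key : ∀ t : NN N → Op N K H, DefF N t → (∀ k l, nm (t k - t l) = nm (s k - s l)) →
        ∀ x, ∃ y, Tt (fun k => t (m + k) x) y := fun t ht e x =>
      exists_tt (by fun_prop) fun ε hε => by
        have h0 : 0 < nm x + 1 := by linarith [nm_nonneg x]
        obtain ⟨n, hn⟩ := h (ε / (nm x + 1)) (div_pos hε h0)
        refine ⟨n, fun k l hk hl => (lip' x _ _).trans_lt ?_⟩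
        have := (lt_div_iff₀ h0).1 (hn (m + k) (m + l) (hk.trans le_add_self) (hl.trans le_add_self))
        rw [e]
        nlinarith [opNorm_nonneg (s (m + k) - s (m + l))]
    obtain ⟨u, hu, -⟩ := exists_strong (s := fun k => s (m + k)) (by fun_prop) (C := nm (s m) + 1)
      (fun k => by linarith [nm_le_add_sub (s (m + k)) (s m), hm (m + k) m le_self_add le_rfl])
      (key s hs' fun _ _ => rfl)
      (key (fun k => star (s k)) (by fun_prop) fun k l => by rw [← star_sub, nm_star])
    refine ⟨u, fun ε hε => ?_⟩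
    obtain ⟨n, hn⟩ := h (ε / 2) (half_pos hε)
    refine ⟨n, fun k hk => (nm_le_of_ball fun x hx => ?_).trans_lt (half_lt_self hε)⟩
    refine le_of_forall_pos_le_add fun δ hδ => ?_
    obtain ⟨j, hj⟩ := hu x δ hδ
    have h1 := hj (max j n) (le_max_left _ _)
    have h2 := (s k - s (m + max j n)).le_nm_of_le_one hx
    have h3 := hn k (m + max j n) hk ((le_max_right _ _).trans le_add_self)
    rw [sub_apply] at h2 ⊢
    linarith [nm_triangle (s k x) (s (m + max j n) x) (u x)]

end Op

end Vale.Agent.P070Z
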