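import Vale.Agent.P070ZA.Op
import Vale.Agent.P070ZT.Cnt

/-!
# Algebras of operators, representations and the notions of the construction
-/

set_option linter.unusedSectionVars false

namespace Vale.Agent.P070Z

open Vale.Agent.P129B Vale.Agent.P070ZT

universe v

variable {N : Type v} [ZM N] {α : Type*} [Coded N α]
  {R K : Type*} [Nm K R] [Field R] [LinearOrder R] [IsStrictOrderedRing R]
  [Field K] [Algebra R K] [KA R K] [StarRing K] [CX R K] [Coded N R] [RF N R] [Coded N K]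
  [KF N R K] {H : Type*} [AddCommGroup H] [Module K H] [Nm H R] [Ip H K] [IA R K H] [Coded N H]
  [HS N R K H] {L : Type*} [AddCommGroup L] [Module K L] [Nm L R] [Ip L K] [IA R K L] [Coded N L]
  [HS N R K L]

instance defSMul_op : DefSMul N K (Op N K H) := ⟨defF_op (by simp only [Op.smul_apply]; fun_prop)⟩

/-- the algebra generated by `X` -/
def gen (X : Set (Op N K H)) : Set (Op N K H) :=
  {x | ∀ B : Set (Op N K H), CS N K B → X ⊆ B → x ∈ B}

/-- positive operators -/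
def Pos (k : Op N K H) : Prop := star k = k ∧ ∀ x : H, 0 ≤ KA.re (ip x (k x))

/-- unitaries -/
def Un (u : Op N K H) : Prop := star u * u = 1 ∧ u * star u = 1

/-- `x` commutes with `U` and its adjoint -/
def Com (U x : Op N K H) : Prop := U * x = x * U ∧ star U * x = x * star U

/-- the cut-off `(1 + 2 ^ n k)⁻¹` -/
noncomputable def cut (n : NN N) (k : Op N K H) : Op N K H :=
  Ring.inverse (1 + algebraMap R K (ipow (2 : R) n) • k)

/-- representations of `A` -/
structure Rp (A : Set (Op N K H)) (π : Op N K H → Op N K L) : Prop where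
  defF : DefF N π
  add : ∀ a ∈ A, ∀ b ∈ A, π (a + b) = π a + π b
  smul : ∀ c : K, ∀ a ∈ A, π (c • a) = c • π a
  mul : ∀ a ∈ A, ∀ b ∈ A, π (a * b) = π a * π b
  star : ∀ a ∈ A, π (star a) = star (π a)

/-- unital contractive representations of `A` -/
structure URp (A : Set (Op N K H)) (π : Op N K H → Op N K L) : Prop extends Rp A π where
  one : π 1 = 1
  bd : ∀ a ∈ A, ∀ z : L, nm (π a z) ≤ nm a * nm z

/-- no closed invariant subspaces -/
def Irr (A : Set (Op N K H)) (π : Op N K H → Op N K L) : Prop :=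
  ∀ V : Set L, IsISub N K V → Cld V → (∀ a ∈ A, ∀ x ∈ V, π a x ∈ V) →
    (∀ x ∈ V, x = 0) ∨ ∀ x, x ∈ V

/-- `x` is a scalar on the kernel of `k` -/
def DetAt (P : Op N K H → Op N K L) (k x : Op N K H) (c : K) : Prop :=
  ∀ z w : L, P k z = 0 → P k w = 0 → ip w (P x z) = c * ip w z

/-- every element of `G` is a scalar on the kernel of `k` -/
def Det (P : Op N K H → Op N K L) (k : Op N K H) (G : Set (Op N K H)) : Prop :=
  ∀ x ∈ G, ∃ c : K, DetAt P k x c

/-- `G` does not connect the kernels -/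
def Ineq (P : Op N K H → Op N K L) (k1 k2 : Op N K H) (G : Set (Op N K H)) : Prop :=
  ∀ x ∈ G, ∀ z1 z2 : L, P k1 z1 = 0 → P k2 z2 = 0 → ip z2 (P x z1) = 0

/-- `k` is not bounded below on the orbit of `ξ` -/
def Full (P : Op N K H → Op N K L) (k : Op N K H) (A : Set (Op N K H)) (ξ : L) : Prop :=
  ∀ ε : R, 0 < ε → ∃ a ∈ A, P a ξ ≠ 0 ∧ nm (P k (P a ξ)) ≤ ε * nm (P a ξ)

/-- ultrapower representations -/
def IsUltra (P : Op N K H → Op N K L) : Prop :=
  ∃ mk : (NN N → H) → L,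
    (∀ (T : Op N K H) (x : NN N → H), DefF N x → (∃ C : R, ∀ n, nm (x n) ≤ C) →
      P T (mk x) = mk (fun n => T (x n))) ∧
    ∀ x y : NN N → H, DefF N x → DefF N y → (∃ C : R, ∀ n, nm (x n) ≤ C) →
      (∃ C : R, ∀ n, nm (y n) ≤ C) → ∀ (c : K) (r : R),
        (∃ m, ∀ n, m ≤ n → nm (ip (x n) (y n) - c) ≤ r) → nm (ip (mk x) (mk y) - c) ≤ r

/-- the hypotheses of the key construction -/
structure Conf (P : Op N K H → Op N K L) (A : Set (Op N K H)) (k1 k2 : Op N K H) (ξ ζ : L) :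
    Prop where
  k1_mem : k1 ∈ A
  k2_mem : k2 ∈ A
  k1_pos : Pos k1
  k2_pos : Pos k2
  k1_nm : nm k1 ≤ 1
  k2_nm : nm k2 ≤ 1
  det1 : Det P k1 A
  det2 : Det P k2 A
  ineq : Ineq P k1 k2 A
  ξ_nm : nm ξ = 1
  ζ_nm : nm ζ = 1
  ξ_ker : P k1 ξ = 0
  ζ_ker : P k2 ζ = 0
  full1 : Full P k2 A ξ
  full2 : Full P k1 A ζ

/-- base data, seen in the representation `P` -/
structure IsBase (P : Op N K H → Op N K L) (A0 : Set (Op N K H)) (k U : Op N K H) : Prop where
  cs : CS N K A0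
  sep : ∃ s : NN N → Op N K H, Intl N s ∧ (∀ n, s n ∈ A0) ∧ A0 ⊆ gen (Set.range s)
  k_mem : k ∈ A0
  k_pos : Pos k
  k_nm : nm k ≤ 1
  com : ∀ a ∈ A0, Com U a
  det : Det P k A0
  full : ∀ z : L, z ≠ 0 → Full P k A0 z
  inj : ∀ k' : Op N K H, Com U k' →
    (∀ a ∈ A0, ∃ c : K, ∀ z w : H, k' z = 0 → k' w = 0 → ip w (a z) = c * ip w z) →
    ∀ z : H, k' z = 0 → z = 0
  inf : ∀ z : L, nm z = 1 → P k z = 0 → ∃ e : NN N → Op N K H, Intl N e ∧ (∀ n, e n ∈ A0) ∧
    (∀ n, nm (P (e n) z) = 1) ∧ ∀ m n, m ≠ n → ip (P (e m) z) (P (e n) z) = 0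

/-- `(k, u)` is a good pair for the algebra `B` -/
structure Good (P : Op N K H → Op N K L) (k0 U : Op N K H) (B : Set (Op N K H))
    (k u : Op N K H) : Prop where
  k_mem : k ∈ B
  k_pos : Pos k
  det : Det P k B
  ineq : Ineq P k0 k B
  un : Un u
  com : Com U u
  uk_mem : u * k0 ∈ B
  map : ∀ z, P k0 z = 0 → P k (P u z) = 0
  map' : ∀ z, P k z = 0 → P k0 (P (star u) z) = 0

/-- a tower of good pairs -/
structure IsTower {ι : Type*} [Coded N ι] [LinearOrder ι] (P : Op N K H → Op N K L)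
    (A0 : Set (Op N K H)) (k0 U : Op N K H) (k u : ι → Op N K H) : Prop where
  cs : CS N K A0
  dk : DefF N k
  du : DefF N u
  k0_mem : k0 ∈ A0
  k0_pos : Pos k0
  det0 : Det P k0 A0
  good : ∀ i, Good P k0 U (gen (A0 ∪ u '' Set.Iio i)) (k i) (u i)

include R K

/-! ### Closed star subalgebras -/

section Alg

variable {A B X Y : Set (Op N K H)}

theorem _root_.Vale.Agent.P070ZT.CS.cld (h : CS N K A) : Cld A := fun x hx => h.closed x hx

theorem _root_.Vale.Agent.P070ZT.CS.zero (h : CS N K A) : (0 : Op N K H) ∈ A := by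
  simpa using h.smul 0 1 h.one

theorem _root_.Vale.Agent.P070ZT.CS.neg (h : CS N K A) (x : Op N K H) (hx : x ∈ A) : -x ∈ A := by
  simpa using h.smul (-1) x hx

theorem _root_.Vale.Agent.P070ZT.CS.sub (h : CS N K A) (x : Op N K H) (hx : x ∈ A)
    (y : Op N K H) (hy : y ∈ A) : x - y ∈ A := by
  rw [sub_eq_add_neg]; exact h.add x hx _ (h.neg y hy)

theorem _root_.Vale.Agent.P070ZT.CS.isub (h : CS N K A) : IsISub N K A :=
  ⟨h.intl, h.zero, h.add, h.smul⟩

theorem cs_univ : CS N K (Set.univ : Set (Op N K H)) :=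
  ⟨inferInstance, trivial, fun _ _ _ _ => trivial, fun _ _ _ _ => trivial, fun _ _ _ => trivial,
    fun _ _ => trivial, fun _ _ => trivial⟩

/-- A definable closed star subalgebra. -/
theorem cs_setOf {Q : Op N K H → Prop} (hQ : DefF N Q) (one : Q 1)
    (add : ∀ x y, Q x → Q y → Q (x + y)) (mul : ∀ x y, Q x → Q y → Q (x * y))
    (smul : ∀ (c : K) x, Q x → Q (c • x)) (st : ∀ x, Q x → Q (star x)) (cl : Cld {x | Q x}) :
    CS N K {x | Q x} :=
  ⟨intl_setOfT hQ, one, fun x hx y hy => add x y hx hy, fun x hx y hy => mul x y hx hy,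
    fun c x hx => smul c x hx, fun x hx => st x hx, fun _ hx => cl hx⟩

theorem cs_iff (B : Set (Op N K H)) : CS N K B ↔ Intl N B ∧ (1 ∈ B ∧ (∀ x ∈ B, ∀ y ∈ B, x + y ∈ B) ∧
    (∀ x ∈ B, ∀ y ∈ B, x * y ∈ B) ∧ (∀ c : K, ∀ x ∈ B, c • x ∈ B) ∧ (∀ x ∈ B, star x ∈ B) ∧
    Cld B) :=
  ⟨fun h => ⟨h.intl, h.one, h.add, h.mul, h.smul, h.star, h.cld⟩,
    fun ⟨a, b, c, d, e, f, g⟩ => ⟨a, b, c, d, e, f, fun _ hx => g hx⟩⟩

@[fun_prop] theorem DefF.cs {s : α → Set (Op N K H)} (hs : DefF N s) :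
    DefF N (fun a => CS N K (s a)) := by
  have : DefF N (fun a => 1 ∈ s a ∧ (∀ x ∈ s a, ∀ y ∈ s a, x + y ∈ s a) ∧
    (∀ x ∈ s a, ∀ y ∈ s a, x * y ∈ s a) ∧ (∀ c : K, ∀ x ∈ s a, c • x ∈ s a) ∧
    (∀ x ∈ s a, Star.star x ∈ s a) ∧ Cld (s a)) := by fun_prop
  exact this.congrP fun a ha => by rw [cs_iff, and_iff_right (hs.intl a)]

@[fun_prop] theorem DefF.gen {s : α → Set (Op N K H)} (hs : DefF N s) :
    DefF N (fun a => gen (s a)) := by
  have : DefF N (fun a => {x : Op N K H | ∀ B : Set (Op N K H), Intl N B → CS N K B →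
      s a ⊆ B → x ∈ B}) := DefF.setOfT (by fun_prop)
  exact this.congr fun a _ => Set.ext fun x =>
    ⟨fun h B hB => h B hB.intl hB, fun h B _ hB => h B hB⟩

instance intl_gen (X : Set (Op N K H)) [Intl N X] : Intl N (gen X) := (DefF.gen DefF.id).intl X

theorem sub_gen (X : Set (Op N K H)) : X ⊆ gen X := fun _ hx _ _ h => h hx

theorem gen_le (hB : CS N K B) (h : X ⊆ B) : gen X ⊆ B := fun _ hx => hx B hB h

theorem gen_mono (h : X ⊆ Y) : gen X ⊆ gen Y := fun _ hx B hB e => hx B hB (h.trans e)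

theorem cs_gen (X : Set (Op N K H)) [Intl N X] : CS N K (gen X) :=
  ⟨inferInstance, fun _ hB _ => hB.one, fun x hx y hy B hB e => hB.add x (hx B hB e) y (hy B hB e),
    fun x hx y hy B hB e => hB.mul x (hx B hB e) y (hy B hB e),
    fun c x hx B hB e => hB.smul c x (hx B hB e), fun x hx B hB e => hB.star x (hx B hB e),
    fun _ hx _ hB e => hB.cld.icl_sub (gen_le hB e) hx⟩

theorem gk_gen : GK N K (gen : Set (Op N K H) → Set (Op N K H)) :=
  ⟨DefStar.out, Op.nm_mul_le, Op.nm_star, DefF.gen DefF.id, fun X _ => cs_gen X,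
    fun X _ => sub_gen X, fun _ _ _ hB h => gen_le hB h⟩

theorem lip_mul_left (a x y : Op N K H) : nm (a * x - a * y) ≤ nm a * nm (x - y) := by
  rw [← mul_sub]; exact Op.nm_mul_le _ _

theorem lip_mul_right (a x y : Op N K H) : nm (x * a - y * a) ≤ nm a * nm (x - y) := by
  rw [← sub_mul, mul_comm (nm a)]; exact Op.nm_mul_le _ _

theorem cld_comm (U : Op N K H) : Cld {x | U * x = x * U} := by
  have := cld_eq_zero (f := fun x => U * x - x * U) (C := nm U + nm U) fun x y => by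
    rw [sub_sub_sub_comm, add_mul]
    exact (nm_sub_le _ _).trans (add_le_add (lip_mul_left U x y) (lip_mul_right U x y))
  simpa only [sub_eq_zero] using this

/-- the commutant of `U` -/
theorem cs_com (U : Op N K H) : CS N K {x | Com U x} :=
  cs_setOf (by unfold Com; fun_prop) ⟨by simp, by simp⟩
    (fun x y a b => ⟨by rw [mul_add, add_mul, a.1, b.1], by rw [mul_add, add_mul, a.2, b.2]⟩)
    (fun x y a b => ⟨by rw [← mul_assoc, a.1, mul_assoc, b.1, mul_assoc],
      by rw [← mul_assoc, a.2, mul_assoc, b.2, mul_assoc]⟩)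
    (fun c x a => ⟨by rw [mul_smul_comm, smul_mul_assoc, a.1],
      by rw [mul_smul_comm, smul_mul_assoc, a.2]⟩)
    (fun x a => ⟨by simpa only [star_mul, star_star] using (congrArg star a.2).symm,
      by simpa only [star_mul] using (congrArg star a.1).symm⟩)
    ((cld_comm U).inter (cld_comm (star U)))

end Alg

/-! ### Representations -/

section Rep

variable {A B : Set (Op N K H)} {π : Op N K H → Op N K L} {a b : Op N K H}

theorem Rp.mono (h : Rp A π) (e : B ⊆ A) : Rp B π :=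
  ⟨h.defF, fun a ha b hb => h.add a (e ha) b (e hb), fun c a ha => h.smul c a (e ha),
    fun a ha b hb => h.mul a (e ha) b (e hb), fun a ha => h.star a (e ha)⟩

theorem URp.mono (h : URp A π) (e : B ⊆ A) : URp B π :=
  ⟨h.toRp.mono e, h.one, fun a ha => h.bd a (e ha)⟩

theorem urp_id : URp A (fun a : Op N K H => a) :=
  ⟨⟨DefF.id, fun _ _ _ _ => rfl, fun _ _ _ => rfl, fun _ _ _ _ => rfl, fun _ _ => rfl⟩, rfl,
    fun a _ => a.le_opNorm⟩

theorem Rp.zero (h : Rp A π) (hA : CS N K A) : π 0 = 0 := by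
  simpa using h.smul 0 0 hA.zero

theorem Rp.neg (h : Rp A π) (ha : a ∈ A) : π (-a) = -π a := by
  simpa using h.smul (-1) a ha

theorem Rp.sub (h : Rp A π) (hA : CS N K A) (ha : a ∈ A) (hb : b ∈ A) :
    π (a - b) = π a - π b := by
  rw [sub_eq_add_neg, h.add a ha _ (hA.neg b hb), h.neg hb, sub_eq_add_neg]

theorem Rp.mul_apply (h : Rp A π) (ha : a ∈ A) (hb : b ∈ A) (z : L) :
    π (a * b) z = π a (π b z) := by rw [h.mul a ha b hb, Op.mul_apply]

theorem Rp.ip_star_left (h : Rp A π) (ha : a ∈ A) (z w : L) :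
    ip (π (Star.star a) z) w = ip z (π a w) := by rw [h.star a ha, P070Z.ip_star_left]

theorem Rp.ip_star_right (h : Rp A π) (ha : a ∈ A) (z w : L) :
    ip z (π (Star.star a) w) = ip (π a z) w := by rw [h.star a ha, P070Z.ip_star_right]

theorem URp.one_apply (h : URp A π) (z : L) : π 1 z = z := by rw [h.one, Op.one_apply]

theorem URp.nm_le (h : URp A π) (ha : a ∈ A) : nm (π a) ≤ nm a :=
  Op.opNorm_le a.opNorm_nonneg (h.bd a ha)

theorem URp.lip (h : URp A π) (hA : CS N K A) (ha : a ∈ A) (hb : b ∈ A) (z : L) :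
    nm (π a z - π b z) ≤ nm (a - b) * nm z := by
  rw [← Op.sub_apply, ← h.toRp.sub hA ha hb]; exact h.bd _ (hA.sub a ha b hb) z

end Rep

/-! ### Definability -/

section Rules

variable {P : Op N K H → Op N K L} {k x u U : α → Op N K H} {G : α → Set (Op N K H)}

@[fun_prop] theorem DefF.pos (hk : DefF N k) : DefF N (fun a => Pos (k a)) := by
  unfold Pos; fun_prop

@[fun_prop] theorem DefF.un (hk : DefF N k) : DefF N (fun a => Un (k a)) := by
  unfold Un; fun_prop

@[fun_prop] theorem DefF.com (hU : DefF N U) (hx : DefF N x) :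
    DefF N (fun a => Com (U a) (x a)) := by
  unfold Com; fun_prop

theorem DefF.detAt (hP : DefF N P) {c : α → K} (hk : DefF N k) (hx : DefF N x) (hc : DefF N c) :
    DefF N (fun a => DetAt P (k a) (x a) (c a)) := by
  unfold DetAt; fun_prop

theorem DefF.det (hP : DefF N P) (hk : DefF N k) (hG : DefF N G) :
    DefF N (fun a => Det P (k a) (G a)) := by
  unfold Det DetAt; fun_prop

theorem DefF.ineq (hP : DefF N P) (hk : DefF N k) (hx : DefF N x) (hG : DefF N G) :
    DefF N (fun a => Ineq P (k a) (x a) (G a)) := by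
  unfold Ineq; fun_prop

theorem DefF.good (hP : DefF N P) (k0 U : Op N K H) (hG : DefF N G) (hk : DefF N k)
    (hu : DefF N u) : DefF N (fun a => Good P k0 U (G a) (k a) (u a)) := by
  have h1 := DefF.det hP hk hG
  have h2 := DefF.ineq hP (DefF.const k0) hk hG
  have : DefF N (fun a => k a ∈ G a ∧ Pos (k a) ∧ Det P (k a) (G a) ∧ Ineq P k0 (k a) (G a) ∧
      Un (u a) ∧ Com U (u a) ∧ u a * k0 ∈ G a ∧ (∀ z, P k0 z = 0 → P (k a) (P (u a) z) = 0) ∧
      ∀ z, P (k a) z = 0 → P k0 (P (Star.star (u a)) z) = 0) :=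
    DefF.and (by fun_prop) (DefF.and (by fun_prop) (h1.and (h2.and (by fun_prop))))
  exact this.congrP fun a _ => ⟨fun ⟨a, b, c, d, e, f, g, h, i⟩ => ⟨a, b, c, d, e, f, g, h, i⟩,
    fun ⟨a, b, c, d, e, f, g, h, i⟩ => ⟨a, b, c, d, e, f, g, h, i⟩⟩

end Rules

theorem Det.mono {P : Op N K H → Op N K L} {k : Op N K H} {G G' : Set (Op N K H)} (h : Det P k G)
    (e : G' ⊆ G) : Det P k G' := fun x hx => h x (e hx)

theorem Ineq.mono {P : Op N K H → Op N K L} {k1 k2 : Op N K H} {G G' : Set (Op N K H)}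
    (h : Ineq P k1 k2 G) (e : G' ⊆ G) : Ineq P k1 k2 G' := fun x hx => h x (e hx)

theorem Full.mono {P : Op N K H → Op N K L} {k : Op N K H} {G G' : Set (Op N K H)} {ξ : L}
    (h : Full P k G ξ) (e : G ⊆ G') : Full P k G' ξ := fun ε hε =>
  (h ε hε).imp fun _ ha => ⟨e ha.1, ha.2⟩

end Vale.Agent.P070Z
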